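import Vale.Agent.P011UGB1.Mt
import Vale.Agent.P011UH.Mi
import Vale.Agent.P011UW.IF

/-!
The dictionary between the twisted actions on the special linear group and algebras with involution.
-/

set_option autoImplicit false
set_option linter.all false

open Matrix TensorProduct

namespace Vale.Agent.P011UW4

open Vale.Agent.P011L Vale.Agent.P011LT Vale.Agent.P011LB Vale.Agent.P011UGB1 Vale.Agent.P011UW

variable {k K : Type} [Field k] [Field K] [Algebra k K] {n : ℕ}

theorem exists_p2 [Infinite K] [IsSepClosure k K] (hn : 2 ≤ n) (T : Tw k (SA K n))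
    (σ : K ≃ₐ[k] K) : ∃ p, Ex T σ p ∧ (3 ≤ n ∨ p (1, 0) = (1, 0)) := by
  rcases hn.eq_or_lt with rfl | hn
  swap
  · exact (exists_p hn T σ).imp fun _ a => ⟨a, .inl hn⟩
  have a1 : P011UC.SP σ⁻¹ (gE (stab_SA k 2) σ).symm := P011UC.SP.of_map fun _ => rfl
  have a2 : P011UC.SP σ (gE (stab_SA k 2) σ) := P011UC.SP.of_map fun _ => rfl
  have a3 := P011UC.SP.comp (T.pol σ) a1
  have a4 := P011UC.SP.comp a2 (T.pol σ⁻¹)
  rw [mul_inv_cancel] at a3 a4
  obtain ⟨s, hs⟩ := P011UH.inn_two ((gE (stab_SA k 2) σ).symm.trans (T.a σ))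
    ((P011UC.sp_one k).1 a3) ((P011UC.sp_one k).1 (by rw [map_inv] at a4; exact a4))
  have k1 : ∀ p : BB 2 K →+* BB 2 K, (∀ x, p (st x) = st (p x)) →
      (∀ g, (p (t0 g)).1 * s.1 = (t0 (T.a σ g)).1 * s.1) → ∀ g, p (t0 g) = t0 (T.a σ g) :=
    fun p a b g => by
      refine Prod.ext (s.isUnit.mul_right_cancel (b g)) (transpose_injective ?_)
      have := s.isUnit.mul_right_cancel (b g⁻¹)
      rwa [map_inv (T.a σ), th_inv, th_inv, a] at this
  have k3 : ∀ x, (cj s σ).prodMap (cj (ti s) σ) (st x) = st ((cj s σ).prodMap (cj (ti s) σ) x) :=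
    fun x => Prod.ext (transpose_injective (cj_tr s σ x.2ᵀ).symm) (cj_tr s σ x.1)
  have k4 : (cj s σ).prodMap (cj (ti s) σ) (1, 0) = (1, 0) :=
    Prod.ext (map_one (cj s σ)) (map_zero (cj (ti s) σ))
  refine ⟨(cj s σ).prodMap (cj (ti s) σ), ⟨fun c x => Prod.ext (cj_smul _ _ _ _) (cj_smul _ _ _ _),
    k3, k1 _ k3 fun g => (cj_mul _ _ _).trans ?_, .inl k4⟩, .inr k4⟩
  have := hs (gE (stab_SA k 2) σ g)
  rw [MulEquiv.trans_apply, MulEquiv.symm_apply_apply] at this
  exact this.symm

theorem ext_p2 (hn : 2 ≤ n) {p q : BB n K →+* BB n K} {σ : K → K}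
    (hp : ∀ (c : K) x, p (c • x) = σ c • p x) (hq : ∀ (c : K) x, q (c • x) = σ c • q x)
    (p1 : ∀ x, p (st x) = st (p x)) (q1 : ∀ x, q (st x) = st (q x))
    (h0 : 3 ≤ n ∨ p (1, 0) = q (1, 0)) (h : ∀ g, p (t0 g) = q (t0 g)) (x : BB n K) : p x = q x := by
  rcases h0 with h0 | h0
  · exact ext_p h0 hp hq h x
  have h1 : ∀ y : Mn n K, p (y, 0) = q (y, 0) := P011UH.span_th hn (MulEquiv.refl _)
    { carrier := {y | p (y, 0) = q (y, 0)}
      mul_mem' := fun {a b} (c : p _ = q _) (d : p _ = q _) => show p _ = q _ by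
        rw [show ((a * b, 0) : BB n K) = (a, 0) * (b, 0) by simp, map_mul, map_mul, c, d]
      add_mem' := fun {a b} (c : p _ = q _) (d : p _ = q _) => show p _ = q _ by
        rw [show ((a + b, 0) : BB n K) = (a, 0) + (b, 0) by simp, map_add, map_add, c, d]
      algebraMap_mem' := fun c => show p _ = q _ by
        rw [show ((algebraMap K (Mn n K) c, 0) : BB n K) = c • (1, 0) by
          simp [Algebra.algebraMap_eq_smul_one], hp, hq, h0] } fun g => show p _ = q _ by
      rw [show ((P011UH.th (MulEquiv.refl _) g, 0) : BB n K) = (1, 0) * t0 g from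
        Prod.ext (one_mul _).symm (zero_mul _).symm, map_mul, map_mul, h0, h]
  rw [show x = (x.1, 0) + st (x.2ᵀ, 0) by simp [st], map_add, map_add, p1, q1, h1, h1]

theorem exists_mo [IsSepClosure k K] (hn : 2 ≤ n) {T : Tw k (SA K n)}
    {p : (K ≃ₐ[k] K) → BB n K →+* BB n K} (h : ∀ σ, Ex T σ (p σ))
    (h' : ∀ σ, 3 ≤ n ∨ p σ (1, 0) = (1, 0)) :
    ∃ (A : Type) (_ : Ring A) (_ : StarRing A) (_ : Algebra k A) (M : Mo k K n A),
      ∀ x, (∃ a, M.j a = x) ↔ ∀ σ, p σ x = x := by
  let A : Subalgebra k (BB n K) :=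
    { carrier := {x | ∀ σ, p σ x = x}
      mul_mem' := fun a b σ => by rw [map_mul, a σ, b σ]
      add_mem' := fun a b σ => by rw [map_add, a σ, b σ]
      algebraMap_mem' := fun c σ => by
        rw [IsScalarTower.algebraMap_apply k K, Algebra.algebraMap_eq_smul_one, (h σ).smul, map_one,
          AlgEquiv.commutes] }
  letI : StarRing A :=
    { star := fun x => ⟨st x.1, fun σ => by rw [(h σ).st, x.2 σ]⟩
      star_involutive := fun x => rfl
      star_mul := fun x y => Subtype.ext (Prod.ext (transpose_mul _ _) (transpose_mul _ _))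
      star_add := fun x y => rfl }
  refine ⟨A, _, inferInstance, _, ⟨A.val, fun _ => rfl, ⟨?_, fun x => ?_⟩, ?_⟩,
    fun x => ⟨fun e => e.elim fun a e => (show a.1 = x from e) ▸ a.2, fun e => ⟨⟨x, e⟩, rfl⟩⟩⟩
  · classical
    let b := Module.Basis.ofVectorSpace k A
    have b1 : LinearIndependent K (A.val ∘ b) := ind (fun σ => (p σ).toAddMonoidHom)
      (fun σ => (h σ).smul) (fun σ i => (b i).2 σ) (b.linearIndependent.map' A.val.toLinearMap
        (LinearMap.ker_eq_bot.2 Subtype.val_injective))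
    refine (injective_iff_map_eq_zero _).2 fun T hT => ?_
    obtain ⟨c, rfl⟩ := TensorProduct.eq_repr_basis_right b T
    rw [map_finsuppSum] at hT
    simp only [lf_tmul] at hT
    rw [linearIndependent_iff.1 b1 c hT, Finsupp.sum_zero_index]
  · have sl : P011LD.Sl (⊤ : Subgroup (K ≃ₐ[k] K)) fun σ x => p σ x :=
      ⟨fun σ _ => map_add _, fun σ _ => (h σ).smul, fun σ _ τ _ =>
        ext_p2 hn (q := (p σ).comp (p τ)) (h _).smul
          (fun c x => by rw [RingHom.comp_apply, (h τ).smul, (h σ).smul]; rfl) (h _).st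
          (fun x => by rw [RingHom.comp_apply, (h τ).st, (h σ).st]; rfl)
          (or_iff_not_imp_left.2 fun a => by
            rw [RingHom.comp_apply, (h' τ).resolve_left a, (h' σ).resolve_left a,
              (h' _).resolve_left a]) fun g => by
          rw [RingHom.comp_apply, (h τ).th, (h σ).th, (h _).th, map_mul]; rfl, fun v => by
        classical
        obtain ⟨F, hF, h2⟩ := T.cont
        let b := Module.finBasis k F
        refine ⟨Finset.univ.image (fun i => (b i).1) ∪ Finset.univ.image (fun e : Fin n × Fin n =>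
          v.1 e.1 e.2) ∪ Finset.univ.image (fun e : Fin n × Fin n => v.2 e.1 e.2),
          fun σ _ e => ?_⟩
        have h3 : ∀ x ∈ F, σ x = x := fun x hx => by
          have := congrArg F.val (b.sum_repr ⟨x, hx⟩)
          rw [map_sum] at this
          simp only [map_smul] at this
          rw [show x = _ from this.symm, map_sum]
          refine Finset.sum_congr rfl fun i _ => ?_
          rw [map_smul]
          exact congrArg _ (e _ (by simp))
        let q : BB n K →+* BB n K := (σ : K →+* K).mapMatrix.prodMap (σ : K →+* K).mapMatrix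
        refine (ext_p2 hn (q := q) (h σ).smul (fun c x => Prod.ext
          (Matrix.ext fun _ _ => map_mul σ _ _) (Matrix.ext fun _ _ => map_mul σ _ _))
          (h σ).st (fun _ => rfl) ((h' σ).imp_right fun a => a.trans (Prod.ext
            (map_one (σ : K →+* K).mapMatrix) (map_zero (σ : K →+* K).mapMatrix)).symm)
          (fun g => ?_) v).trans (Prod.ext (Matrix.ext fun a b => e _ ?_)
            (Matrix.ext fun a b => e _ ?_))
        · rw [(h σ).th]
          refine Prod.ext (h2 σ h3 g) ?_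
          show (T.a σ g)⁻¹.1.1ᵀ = _
          rw [← map_inv, h2 σ h3]
          rfl
        · simp only [Finset.mem_union, Finset.mem_image]
          exact .inl (.inr ⟨(a, b), Finset.mem_univ _, rfl⟩)
        · simp only [Finset.mem_union, Finset.mem_image]
          exact .inr ⟨(a, b), Finset.mem_univ _, rfl⟩⟩
    have hx : x ∈ Submodule.span K _ := sl.span ▸ Submodule.mem_top
    refine (Submodule.span_le (p := (lf A.val).range.toSubmodule)).2 (fun y hy => ?_) hx
    exact ⟨1 ⊗ₜ ⟨y, fun σ => hy σ trivial⟩, (lf_tmul _ _ _).trans (one_smul _ _)⟩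
  · by_cases a : ∀ σ, p σ (1, 0) = (1, 0)
    · exact .inl ⟨⟨_, a⟩, rfl⟩
    obtain ⟨σ, a⟩ := not_forall.1 a
    obtain ⟨s, hs⟩ := (h σ).dich.resolve_left a
    refine .inr fun x e => Subtype.ext (Prod.ext e (Matrix.map_injective σ.injective
      (s.isUnit.mul_left_cancel ?_)))
    have := hs x.1
    rw [x.2 σ, show x.1.1 = 0 from e] at this
    exact this.symm.trans (by simp)

/-- the element of the special linear group of a unitary pair -/
def mu (x : BB n K) (h1 : x * st x = 1) (h2 : x.1.det = 1) : SA K n :=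
  ⟨⟨x.1, x.2ᵀ, congrArg Prod.fst h1, mul_eq_one_comm.1 (congrArg Prod.fst h1)⟩, mem_SA.2 h2⟩

theorem t0_inj {g h : SA K n} (e : t0 g = t0 h) : g = h := th_inj _ (congrArg Prod.fst e)

theorem mo_inj {A : Type} [Ring A] [StarRing A] [Algebra k A] (M : Mo k K n A) :
    Function.Injective M.j := fun a b e =>
  Algebra.TensorProduct.includeRight_injective (algebraMap k K).injective (M.bij.1 (by
    simpa only [Algebra.TensorProduct.includeRight_apply, lf_tmul, one_smul] using e))

theorem idem [Infinite K] {T : Tw k (SA K n)} {p : (K ≃ₐ[k] K) → BB n K →+* BB n K}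
    (h : ∀ σ, Ex T σ (p σ)) (an : ¬T.Ani) : ∃ e : BB n K, (∀ σ, p σ e = e) ∧ e * e = e ∧
      e * st e = 0 ∧ st e * e = 0 ∧ e.1 ≠ 0 ∧ e.2 ≠ 0 := by
  classical
  simp only [Tw.Ani, not_forall] at an
  obtain ⟨g, y, l, h1, h2, h3⟩ := an
  let c (s : GL (Fin n) K) : (Fin n → K) →+* Mn n K :=
    (cj s (RingHom.id K)).comp (diagonalRingHom (Fin n) K)
  let F : (Fin n → K) × (Fin n → K) →+* BB n K := (c g).prodMap (c (ti g))
  have c1 : ∀ s (a : K) x, c s (a • x) = a • c s x := fun s a x =>
    (congrArg _ (diagonal_smul a x)).trans (cj_smul s _ a _)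
  have c2 : ∀ s x, c s x = 0 → x = 0 := fun s x e => diagonal_injective
    ((s.isUnit.mul_left_cancel ((cj_mul s (RingHom.id K) _).symm.trans
      ((congrArg (· * s.1) e).trans (by simp)))).trans diagonal_zero.symm)
  have c3 : ∀ x, c (ti g) x = (c g x)ᵀ := fun x =>
    (congrArg _ (diagonal_transpose x).symm).trans (cj_tr g _ _)
  have f1 : ∀ (a : K) x, F (a • x) = a • F x := fun a x => Prod.ext (c1 _ _ _) (c1 _ _ _)
  have f2 : ∀ x, st (F x) = F x.swap := fun x =>
    Prod.ext ((congrArg transpose (c3 _)).trans (transpose_transpose _)) (c3 _).symm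
  have l1 : ∀ t, (l t).1.1 = c g fun i => pw (y i) t := fun t =>
    g.isUnit.mul_right_cancel ((h1 t).trans (cj_mul g (RingHom.id K) _).symm)
  have l2 : ∀ t, t0 (l t) = F (fun i => pw (y i) t, fun i => pw (-y i) t) := fun t => by
    refine Prod.ext (l1 t) ((congrArg transpose (Units.inv_eq_of_mul_eq_one_right ?_)).trans
      (c3 _).symm)
    show (l t).1.1 * c g (fun i => pw (-y i) t) = 1
    rw [l1, ← map_mul, ← map_one (c g)]
    exact congrArg _ (funext fun i => by simp [pw, zpow_ne_zero])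
  let S : Finset ℤ := Finset.univ.image y ∪ Finset.univ.image (-y)
  let χ (m : ℤ) : (Fin n → K) × (Fin n → K) :=
    (fun i => if y i = m then 1 else 0, fun i => if -y i = m then 1 else 0)
  have s1 : ∀ f : ℤ → K, ∑ m ∈ S, f m • F (χ m) = F (fun i => f (y i), fun i => f (-y i)) :=
    fun f => by
      simp only [← f1, ← map_sum]
      refine congrArg _ (Prod.ext ?_ ?_) <;> funext i <;>
        simp [Prod.fst_sum, Prod.snd_sum, Finset.sum_apply, χ, S]
  have s2 : ∀ σ, ∀ m ∈ S, p σ (F (χ m)) = F (χ m) := fun σ m hm =>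
    sub_eq_zero.1 (uni (pw_li (L := K)) S (fun m => p σ (F (χ m)) - F (χ m)) (fun t => by
      have := (h σ).th (l (Units.map (σ.symm : K →* K) t))
      rw [h2, l2, l2, ← s1 fun m => pw m _, ← s1 fun m => pw m _, map_sum] at this
      simp only [(h σ).smul] at this
      simp only [smul_sub, Finset.sum_sub_distrib, sub_eq_zero]
      convert this using 3 <;> simp [pw]) m hm)
  have y0 : ∑ i, y i = 0 := P011LA.zpow_inj (K := K) fun t => by
    have := congrArg det (h1 t)
    rw [det_mul, det_mul, mem_SA.1 (l t).2, mul_comm, mul_right_inj' g.det_ne_zero, det_diagonal,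
      ← Units.coe_prod] at this
    refine Eq.trans ?_ (Units.ext this.symm)
    exact (congrArg (zpowersHom Kˣ t) (ofAdd_sum Finset.univ y)).trans (map_prod _ _ _)
  have y1 : ∃ i, 0 < y i := by
    by_contra! a
    exact h3 (funext fun i => (Finset.sum_eq_zero_iff_of_nonpos fun i _ => a i).1 y0 i
      (Finset.mem_univ i))
  have y2 : ∃ i, 0 < -y i := by
    by_contra! a
    exact h3 (funext fun i => (Finset.sum_eq_zero_iff_of_nonneg fun i _ => by
      have := a i; omega).1 y0 i (Finset.mem_univ i))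
  let f : ℤ → K := fun m => if 0 < m then 1 else 0
  refine ⟨F (fun i => f (y i), fun i => f (-y i)), fun σ => ?_, ?_, ?_, ?_, fun e => ?_, fun e => ?_⟩
  · rw [← s1, map_sum]
    refine Finset.sum_congr rfl fun m hm => ?_
    rw [(h σ).smul, s2 σ m hm]
    simp [f, apply_ite σ]
  · rw [← map_mul]
    refine congrArg _ (Prod.ext ?_ ?_) <;> funext i <;> simp [f]
  · rw [f2, ← map_mul, ← map_zero F]
    refine congrArg _ (Prod.ext ?_ ?_) <;> funext i <;> simp [f] <;> omega
  · rw [f2, ← map_mul, ← map_zero F]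
    refine congrArg _ (Prod.ext ?_ ?_) <;> funext i <;> simp [f] <;> omega
  · obtain ⟨i, a⟩ := y1
    simpa [f, a] using congrFun (c2 _ _ e) i
  · obtain ⟨i, a⟩ := y2
    exact one_ne_zero ((if_pos a).symm.trans (congrFun (c2 _ _ e) i))

theorem dic : DIC := by
  intro k K _ _ _ _ _ n hn T
  haveI : Infinite K := .of_injective _ (algebraMap k K).injective
  choose p h h' using exists_p2 hn T
  obtain ⟨A, _, _, _, M, mem⟩ := exists_mo hn h h'
  have inj := mo_inj M
  refine ⟨A, _, _, _, M, ?_, fun an => ?_⟩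
  · have q : ∀ u : unitary A, M.j u * st (M.j u) = 1 := fun u => by
      rw [← M.st, ← map_mul, u.2.2, map_one]
    let ζ : M.SU →* T.fix :=
      { toFun := fun u => ⟨mu _ (q u.1) u.2, fun σ => t0_inj
          (((h σ).th _).symm.trans ((mem _).1 ⟨_, rfl⟩ σ))⟩
        map_one' := Subtype.ext (t0_inj ((map_one M.j).trans (map_one t0).symm))
        map_mul' := fun u v => Subtype.ext (t0_inj ((map_mul M.j u.1.1 v.1.1).trans
          (map_mul t0 (mu _ (q u.1) u.2) (mu _ (q v.1) v.2)).symm)) }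
    have b : Function.Bijective ζ := by
      refine ⟨fun u v e => Subtype.ext (Subtype.ext
        (inj (congrArg (fun g : T.fix => t0 g.1) e))), fun g => ?_⟩
      obtain ⟨u, hu⟩ := (mem (t0 g.1)).2 fun σ => by rw [(h σ).th, g.2 σ]
      refine ⟨⟨⟨u, inj ?_, inj ?_⟩, (congrArg (fun x : BB n K => x.1.det) hu).trans
        (mem_SA.1 g.1.2)⟩, Subtype.ext (t0_inj hu)⟩
      · rw [map_mul, M.st, hu, ← th_inv, ← map_mul, inv_mul_cancel, map_one, map_one]
      · rw [map_mul, M.st, hu, ← th_inv, ← map_mul, mul_inv_cancel, map_one, map_one]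
    exact ⟨(MulEquiv.ofBijective ζ b).symm, fun g =>
      congrArg (·.1.1.1) ((MulEquiv.ofBijective ζ b).apply_symm_apply g)⟩
  · obtain ⟨e, e0, e1, e2, e3, e4, e5⟩ := idem h an
    obtain ⟨a, rfl⟩ := (mem e).2 e0
    exact ⟨a, inj (by rw [map_mul, e1]), inj (by rw [map_mul, M.st, e2, map_zero]),
      inj (by rw [map_mul, M.st, e3, map_zero]), e4, e5⟩

end Vale.Agent.P011UW4
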